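import Vale.Agent.P063.FourProduct
import Vale.Agent.P063.FourthMoment
import Vale.Agent.P063.LowMass
import Vale.Agent.P063.LowDegree
import Vale.Agent.P063.Width

/-!
# P063: the Friedgut-Kalai threshold-width conjecture
-/

namespace Vale.Agent.Results.P063.ThresholdWidth

open Vale.Agent.P063

/-- Every nontrivial increasing invariant property of `r`-uniform hypergraphs on `n` vertices has
threshold width `O((log n)^(-r/(r-1)))`. -/
theorem result : ∀ r : ℕ, 2 ≤ r → ∀ ε : ℝ, 0 < ε → ε < 1 / 2 → ∃ C : ℝ,
    ∀ n : ℕ, r ≤ n → ∀ P : (Edge n r → Bool) → Bool,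
      Invariant P → Increasing P → Nontrivial' P →
        width P ε ≤ C / Real.log n ^ ((r : ℝ) / ((r : ℝ) - 1)) :=
  widthBound (lowDegree (lowMass (fourthMoment fourProduct)))

end Vale.Agent.Results.P063.ThresholdWidth
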